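import Vale.Agent.P361.LRO.Defs

/-!
P361, bridge between the charge networks and words of matrices: tensor products, permutation
matrices, the sum over the random permutation.
-/

namespace Vale.Agent.P361.LRO.Br

open Finset Matrix

noncomputable section

section tens

set_option linter.unusedSectionVars false

variable {X : Type} [Fintype X] [DecidableEq X] {R : Type*} [CommRing R]

/-- Tensor product of the matrices `A x`. -/
def tens (A : X → Matrix (Fin 2) (Fin 2) R) : Matrix (X → Fin 2) (X → Fin 2) R :=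
  Matrix.of fun s t => ∏ x, A x (s x) (t x)

theorem tens_apply (A : X → Matrix (Fin 2) (Fin 2) R) (s t : X → Fin 2) :
    tens A s t = ∏ x, A x (s x) (t x) := rfl

theorem tens_mul (A B : X → Matrix (Fin 2) (Fin 2) R) :
    tens A * tens B = tens fun x => A x * B x := by
  ext s t
  rw [Matrix.mul_apply, tens_apply]
  simp only [tens_apply, Matrix.mul_apply]
  rw [Finset.prod_univ_sum, Fintype.piFinset_univ]
  exact Finset.sum_congr rfl fun u _ => (Finset.prod_mul_distrib).symm

theorem tens_one : tens (fun _ : X => (1 : Matrix (Fin 2) (Fin 2) R)) = 1 := by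
  ext s t
  rw [tens_apply]
  by_cases h : s = t
  · subst h
    simp
  · rw [Matrix.one_apply_ne h]
    obtain ⟨x, hx⟩ := Function.ne_iff.1 h
    exact Finset.prod_eq_zero (Finset.mem_univ x) (Matrix.one_apply_ne hx)

/-- Permutation matrix. -/
def permM (σ : Equiv.Perm X) : Matrix (X → Fin 2) (X → Fin 2) R :=
  Matrix.of fun s t => if s = t ∘ σ then 1 else 0

theorem permM_apply (σ : Equiv.Perm X) (s t : X → Fin 2) :
    (permM σ : Matrix (X → Fin 2) (X → Fin 2) R) s t = if s = t ∘ σ then 1 else 0 := rfl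

theorem mul_permM (M : Matrix (X → Fin 2) (X → Fin 2) R) (σ : Equiv.Perm X) (s t : X → Fin 2) :
    (M * (permM σ : Matrix (X → Fin 2) (X → Fin 2) R)) s t = M s (t ∘ σ) := by
  rw [Matrix.mul_apply]
  simp only [permM_apply, mul_ite, mul_one, mul_zero]
  rw [Finset.sum_ite_eq' Finset.univ (t ∘ σ) (fun u => M s u), if_pos (Finset.mem_univ _)]

theorem permM_mul_apply (M : Matrix (X → Fin 2) (X → Fin 2) R) (σ : Equiv.Perm X)
    (s t : X → Fin 2) : ((permM σ : Matrix (X → Fin 2) (X → Fin 2) R) * M) s t =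
      M (s ∘ (σ⁻¹ : Equiv.Perm X)) t := by
  rw [Matrix.mul_apply]
  simp only [permM_apply, ite_mul, one_mul, zero_mul]
  have h : ∀ u : X → Fin 2, s = u ∘ σ ↔ u = s ∘ (σ⁻¹ : Equiv.Perm X) := by
    intro u
    constructor
    · rintro rfl
      funext x
      simp
    · rintro rfl
      funext x
      simp
  simp only [h]
  rw [Finset.sum_ite_eq' Finset.univ (s ∘ ⇑σ⁻¹) (fun u => M u t), if_pos (Finset.mem_univ _)]

theorem permM_mul (σ τ : Equiv.Perm X) :
    (permM σ * permM τ : Matrix (X → Fin 2) (X → Fin 2) R) = permM (τ * σ) := by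
  ext s t
  rw [mul_permM, permM_apply, permM_apply]
  rfl

theorem permM_one : (permM 1 : Matrix (X → Fin 2) (X → Fin 2) R) = 1 := by
  ext s t
  rw [permM_apply, Matrix.one_apply]
  rfl

/-- Permutations move the factors. -/
theorem permM_tens (σ : Equiv.Perm X) (A : X → Matrix (Fin 2) (Fin 2) R) :
    (permM σ : Matrix (X → Fin 2) (X → Fin 2) R) * tens A =
      tens (fun x => A (σ x)) * permM σ := by
  ext s t
  rw [permM_mul_apply, mul_permM, tens_apply, tens_apply]
  refine (Fintype.prod_equiv σ _ _ fun x => ?_).symm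
  simp

/-- All nodes in the same basis. -/
theorem permM_comm (σ : Equiv.Perm X) (U : Matrix (Fin 2) (Fin 2) R) :
    (permM σ : Matrix (X → Fin 2) (X → Fin 2) R) * tens (fun _ => U) =
      tens (fun _ => U) * permM σ := permM_tens σ _

theorem trace_perm (A : X → Matrix (Fin 2) (Fin 2) R) (π : Equiv.Perm X) :
    Matrix.trace (tens A * permM π) = ∑ s : X → Fin 2, ∏ z, A z (s z) (s (π z)) := by
  rw [Matrix.trace]
  refine Finset.sum_congr rfl fun s _ => ?_
  rw [Matrix.diag_apply, mul_permM, tens_apply]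
  rfl

variable [Algebra ℝ R]

/-- The partition function with the node matrices `A`. -/
def NZ (μ : Equiv.Perm X → ℝ) (A : X → Matrix (Fin 2) (Fin 2) R) : R :=
  ∑ π, μ π • ∑ s : X → Fin 2, ∏ z, A z (s z) (s (π z))

/-- The average of the permutation matrices. -/
def avM (μ : Equiv.Perm X → ℝ) : Matrix (X → Fin 2) (X → Fin 2) R := ∑ π, μ π • permM π

theorem NZ_eq (μ : Equiv.Perm X → ℝ) (A : X → Matrix (Fin 2) (Fin 2) R) :
    NZ μ A = Matrix.trace (tens A * avM μ) := by
  unfold NZ avM
  rw [Matrix.mul_sum, Matrix.trace_sum]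
  refine Finset.sum_congr rfl fun π _ => ?_
  rw [Matrix.mul_smul, Matrix.trace_smul, trace_perm]

theorem avM_comm (μ : Equiv.Perm X → ℝ) (U : Matrix (Fin 2) (Fin 2) R) :
    avM μ * tens (fun _ : X => U) = tens (fun _ => U) * avM μ := by
  unfold avM
  rw [Matrix.sum_mul, Matrix.mul_sum]
  refine Finset.sum_congr rfl fun π _ => ?_
  rw [Matrix.smul_mul, Matrix.mul_smul, permM_comm]

/-- **Change of basis.** -/
theorem NZ_conj (μ : Equiv.Perm X → ℝ) (A : X → Matrix (Fin 2) (Fin 2) R)
    {U W : Matrix (Fin 2) (Fin 2) R} (h : W * U = 1) :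
    NZ μ (fun x => U * A x * W) = NZ μ A := by
  rw [NZ_eq, NZ_eq, ← tens_mul, ← tens_mul, Matrix.mul_assoc, ← avM_comm, ← Matrix.mul_assoc,
    Matrix.trace_mul_comm, ← Matrix.mul_assoc, ← Matrix.mul_assoc, tens_mul]
  simp only [h]
  rw [tens_one, Matrix.one_mul]

/-- A gate. -/
def gM (g : X × X × ℝ) : Matrix (X → Fin 2) (X → Fin 2) R :=
  (1 - g.2.2) • (1 : Matrix (X → Fin 2) (X → Fin 2) R) +
    g.2.2 • (permM (Equiv.swap g.1 g.2.1) : Matrix (X → Fin 2) (X → Fin 2) R)

theorem avM_law (l : List (X × X × ℝ)) (σ : Equiv.Perm X) :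
    (avM (law l σ) : Matrix (X → Fin 2) (X → Fin 2) R) =
      permM σ * ((l.map fun g => (gM g : Matrix (X → Fin 2) (X → Fin 2) R)).reverse).prod := by
  induction l with
  | nil =>
    unfold avM law
    rw [Finset.sum_eq_single σ]
    · simp
    · intro π _ h
      simp [h]
    · intro h
      exact absurd (Finset.mem_univ σ) h
  | cons g l ih =>
    have h1 : (avM (law (g :: l) σ) : Matrix (X → Fin 2) (X → Fin 2) R) =
        avM (law l σ) * gM g := by
      unfold avM gM
      rw [Matrix.mul_add, Matrix.mul_smul, Matrix.mul_smul, Matrix.mul_one, Matrix.sum_mul,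
        Finset.smul_sum, Finset.smul_sum]
      have h2 : ∀ π : Equiv.Perm X, law (g :: l) σ π =
          (1 - g.2.2) * law l σ π + g.2.2 * law l σ (Equiv.swap g.1 g.2.1 * π) := fun π => rfl
      simp only [h2, add_smul, mul_smul]
      rw [Finset.sum_add_distrib]
      congr 1
      refine Fintype.sum_equiv (Equiv.mulLeft (Equiv.swap g.1 g.2.1)) _ _ fun π => ?_
      rw [Equiv.coe_mulLeft, Matrix.smul_mul, permM_mul, ← mul_assoc, Equiv.swap_mul_self, one_mul]
    rw [h1, ih, List.map_cons, List.reverse_cons, List.prod_append, List.prod_singleton,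
      Matrix.mul_assoc]

/-- **Traces of words on the large space.** -/
theorem NZ_law (l : List (X × X × ℝ)) (σ : Equiv.Perm X) (A : X → Matrix (Fin 2) (Fin 2) R) :
    NZ (law l σ) A = Matrix.trace (tens A * permM σ *
      ((l.map fun g => (gM g : Matrix (X → Fin 2) (X → Fin 2) R)).reverse).prod) := by
  rw [NZ_eq, avM_law, Matrix.mul_assoc]

end tens

end

end Vale.Agent.P361.LRO.Br
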