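import Vale.Agent.P361.LRO.Bridge.PermTrace

/-!
P361, corollaries of `sum_phys`: change of basis, partition function, magnetization, twists.
-/

namespace Vale.Agent.P361.LRO

open Finset Matrix

noncomputable section

set_option linter.unusedSectionVars false

namespace Bridge

variable {V : Type} [Fintype V] [DecidableEq V]
variable {R : Type*} [CommRing R] [Algebra ℝ R]

/-! ### Change of basis -/

section Basis

variable {X : Type} [Fintype X] [DecidableEq X]

/-- One `2 × 2` matrix per node. -/
def tX (D : X → Matrix (Fin 2) (Fin 2) R) : Matrix (X → Fin 2) (X → Fin 2) R :=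
  Matrix.of fun a b => ∏ z, D z (a z) (b z)

lemma tX_apply (D : X → Matrix (Fin 2) (Fin 2) R) (a b : X → Fin 2) :
    tX D a b = ∏ z, D z (a z) (b z) := rfl

lemma tX_mul (D E : X → Matrix (Fin 2) (Fin 2) R) :
    tX D * tX E = tX fun z => D z * E z := by
  ext a b
  rw [Matrix.mul_apply]
  simp only [tX_apply, ← Finset.prod_mul_distrib, Matrix.mul_apply]
  rw [Finset.prod_univ_sum, Fintype.piFinset_univ]

lemma tX_one : tX (fun _ : X => (1 : Matrix (Fin 2) (Fin 2) R)) = 1 := by
  ext a b
  rw [tX_apply, Matrix.one_apply]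
  by_cases h : a = b
  · subst h
    simp
  · rw [if_neg h]
    obtain ⟨x, hx⟩ := Function.ne_iff.1 h
    exact Finset.prod_eq_zero (Finset.mem_univ x) (Matrix.one_apply_ne hx)

lemma permM_comm (g : Matrix (Fin 2) (Fin 2) R) (π : Equiv.Perm X) :
    permM R π * tX (fun _ => g) = tX (fun _ => g) * permM R π := by
  ext a b
  rw [Matrix.mul_apply, Matrix.mul_apply]
  rw [Finset.sum_eq_single (a ∘ π.symm), Finset.sum_eq_single (b ∘ π)]
  · rw [permM_apply, permM_apply, if_pos rfl, if_pos, one_mul, mul_one, tX_apply, tX_apply]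
    · exact (Equiv.prod_comp π (fun z => g ((a ∘ π.symm) z) (b z))).symm.trans
        (Finset.prod_congr rfl fun z _ => by simp)
    · funext z
      simp
  · intro c _ hc
    rw [permM_apply, if_neg hc, mul_zero]
  · intro h
    exact absurd (Finset.mem_univ _) h
  · intro c _ hc
    rw [permM_apply, if_neg, zero_mul]
    intro h
    apply hc
    rw [h]
    funext z
    simp
  · intro h
    exact absurd (Finset.mem_univ _) h

/-- The sum over spins does not depend on the basis. -/
theorem sum_conj (D : X → Matrix (Fin 2) (Fin 2) R) {g g' : Matrix (Fin 2) (Fin 2) R}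
    (h : g' * g = 1) (π : Equiv.Perm X) :
    ∑ s : X → Fin 2, ∏ z, (g * D z * g') (s z) (s (π z)) =
      ∑ s : X → Fin 2, ∏ z, D z (s z) (s (π z)) := by
  rw [sum_prod_eq_trace (fun z => g * D z * g'), sum_prod_eq_trace D]
  change trace (tX (fun z => g * D z * g') * permM R π) = trace (tX D * permM R π)
  have e : tX (fun z => g * D z * g') = tX (fun _ => g) * tX D * tX (fun _ => g') := by
    rw [tX_mul, tX_mul]
  rw [e, mul_assoc, ← permM_comm, ← mul_assoc, Matrix.trace_mul_comm, ← mul_assoc, ← mul_assoc,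
    tX_mul]
  have e2 : (fun _ : X => g' * g) = fun _ => 1 := by
    funext _
    exact h
  rw [e2, tX_one, one_mul]

end Basis

/-! ### Words -/

/-- The trace of the word with the node matrices `D`. -/
def W (R : Type*) [CommRing R] [Algebra ℝ R] (L : List (V × V)) (β : ℝ) (N : ℕ)
    (D : Fin (N + 1) × V → Matrix (Fin 2) (Fin 2) R) : R :=
  Matrix.trace (rprod N (fun k => layD D k.succ * layerG R L (β / (2 * N))) * layD D 0)

theorem sum_phys_conj (L : List (V × V)) (β : ℝ) (N : ℕ)
    (D : Fin (N + 1) × V → Matrix (Fin 2) (Fin 2) R) {g g' : Matrix (Fin 2) (Fin 2) R}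
    (h : g' * g = 1) :
    ∑ π, phys L β N π • ∑ s : Fin (N + 1) × V → Fin 2, ∏ z, D z (s z) (s (π z)) =
      W R L β N fun z => g * D z * g' := by
  have h1 := sum_phys L β N (fun z => (g * D z * g' : Matrix (Fin 2) (Fin 2) R))
  rw [W, ← h1]
  refine Finset.sum_congr rfl fun π _ => ?_
  rw [sum_conj D h]

/-- Rotated slice `1 + θ (cos φ σ³ + sin φ σ¹)`. -/
def rotD (θ φ : ℝ) : Matrix (Fin 2) (Fin 2) ℝ :=
  !![1 + θ * Real.cos φ, θ * Real.sin φ; θ * Real.sin φ, 1 - θ * Real.cos φ]

/-- Generating function of the charges of the physical circuit = trace of the word with rotated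
slices. -/
theorem twist_complex (L : List (V × V)) (β : ℝ) (N : ℕ) (θ φ : Fin (N + 1) × V → ℝ) :
    ∑ π, ∑ s, ((phys L β N π * wt θ π s : ℝ) : ℂ) *
      Complex.exp (Complex.I * ∑ z, (φ z * jj π s z : ℝ)) =
      W ℂ L β N fun z => (rotD (θ z) (φ z)).map (algebraMap ℝ ℂ) := by
  -- the matrix of a node in the charge basis
  let D : Fin (N + 1) × V → Matrix (Fin 2) (Fin 2) ℂ := fun z =>
    !![1, θ z * Complex.exp (-(Complex.I * φ z)); θ z * Complex.exp (Complex.I * φ z), 1]
  let g : Matrix (Fin 2) (Fin 2) ℂ := !![1, 1; Complex.I, -Complex.I]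
  let g' : Matrix (Fin 2) (Fin 2) ℂ := !![1 / 2, -Complex.I / 2; 1 / 2, Complex.I / 2]
  have hI : Complex.I * Complex.I = -1 := Complex.I_mul_I
  have hg : g' * g = 1 := by
    simp only [g, g', Matrix.mul_fin_two, Matrix.one_fin_two]
    have e1 : (1 / 2 : ℂ) * 1 + -Complex.I / 2 * Complex.I = 1 := by
      linear_combination (-1 / 2 : ℂ) * hI
    have e2 : (1 / 2 : ℂ) * 1 + -Complex.I / 2 * -Complex.I = 0 := by
      linear_combination (1 / 2 : ℂ) * hI
    have e3 : (1 / 2 : ℂ) * 1 + Complex.I / 2 * Complex.I = 0 := by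
      linear_combination (1 / 2 : ℂ) * hI
    have e4 : (1 / 2 : ℂ) * 1 + Complex.I / 2 * -Complex.I = 1 := by
      linear_combination (-1 / 2 : ℂ) * hI
    rw [e1, e2, e3, e4]
  have hD : ∀ z, g * D z * g' = (rotD (θ z) (φ z)).map (algebraMap ℝ ℂ) := by
    intro z
    have hc : Complex.cos (φ z) = (Complex.exp (Complex.I * φ z) +
        Complex.exp (-(Complex.I * φ z))) / 2 := by
      rw [Complex.cos]
      congr 2 <;> ring_nf
    have hs : Complex.sin (φ z) = (Complex.exp (-(Complex.I * φ z)) -
        Complex.exp (Complex.I * φ z)) * Complex.I / 2 := by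
      rw [Complex.sin]
      congr 2 <;> ring_nf
    have hr : (rotD (θ z) (φ z)).map (algebraMap ℝ ℂ) =
        !![1 + (θ z : ℂ) * Complex.cos (φ z), (θ z : ℂ) * Complex.sin (φ z);
          (θ z : ℂ) * Complex.sin (φ z), 1 - (θ z : ℂ) * Complex.cos (φ z)] := by
      ext i j
      fin_cases i <;> fin_cases j <;> simp [rotD]
    rw [hr, hc, hs]
    simp only [g, g', D, Matrix.mul_fin_two]
    generalize Complex.exp (Complex.I * φ z) = q
    generalize Complex.exp (-(Complex.I * φ z)) = p
    ext i j
    fin_cases i <;> fin_cases j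
    all_goals simp
    · ring
    · ring
    · ring
    · linear_combination (-1 / 2 : ℂ) * (2 - θ z * q - θ z * p) * hI
  have h := sum_phys_conj L β N D hg
  simp only [hD] at h
  rw [← h]
  refine Finset.sum_congr rfl fun π _ => ?_
  rw [Finset.smul_sum]
  refine Finset.sum_congr rfl fun s _ => ?_
  have hw : ((wt θ π s : ℝ) : ℂ) * Complex.exp (Complex.I * ∑ z, (φ z * jj π s z : ℝ)) =
      ∏ z, D z (s z) (s (π z)) := by
    rw [wt, Complex.ofReal_prod, Complex.ofReal_sum, Finset.mul_sum, Complex.exp_sum,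
      ← Finset.prod_mul_distrib]
    refine Finset.prod_congr rfl fun z _ => ?_
    simp only [jj]
    generalize s z = a
    generalize s (π z) = b
    fin_cases a <;> fin_cases b <;> simp [D]
  rw [← hw, Complex.ofReal_mul, mul_assoc, Complex.real_smul]

/-! ### Real and complex words -/

lemma rprod_map {ι : Type*} [Fintype ι] [DecidableEq ι] (n : ℕ) (A : Fin n → Matrix ι ι ℝ) :
    (rprod n A).map (algebraMap ℝ ℂ) = rprod n fun k => (A k).map (algebraMap ℝ ℂ) := by
  induction n with
  | zero => simp [rprod, Matrix.map_one]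
  | succ n ih => rw [rprod, rprod, Matrix.map_mul, ih]

lemma permM_map {X : Type} [Fintype X] [DecidableEq X] (σ : Equiv.Perm X) :
    (permM ℝ σ).map (algebraMap ℝ ℂ) = permM ℂ σ := by
  ext a b
  simp only [Matrix.map_apply, permM_apply]
  split_ifs <;> simp

lemma gateM_map {X : Type} [Fintype X] [DecidableEq X] (x y : X) (p : ℝ) :
    (gateM ℝ x y p).map (algebraMap ℝ ℂ) = gateM ℂ x y p := by
  ext a b
  simp only [gateM, Matrix.map_apply, Matrix.add_apply, Matrix.smul_apply, Matrix.one_apply,
    permM_apply]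
  split_ifs <;> simp

lemma layerG_map (L : List (V × V)) (p : ℝ) :
    (layerG ℝ L p).map (algebraMap ℝ ℂ) = layerG ℂ L p := by
  induction L with
  | nil => simp [layerG, Matrix.map_one]
  | cons e L ih =>
    simp only [layerG, List.map_cons, List.reverse_cons, List.prod_append, List.prod_cons,
      List.prod_nil, mul_one] at ih ⊢
    rw [Matrix.map_mul, ih, gateM_map]

lemma layD_map {n : ℕ} (D : Fin n × V → Matrix (Fin 2) (Fin 2) ℝ) (k : Fin n) :
    (layD (V := V) (R := ℝ) (fun z => D z) k).map (algebraMap ℝ ℂ) =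
      layD (V := V) (R := ℂ) (fun z => (D z).map (algebraMap ℝ ℂ)) k := by
  ext a b
  simp only [Matrix.map_apply, layD, Matrix.of_apply, map_prod]

theorem W_map (L : List (V × V)) (β : ℝ) (N : ℕ)
    (D : Fin (N + 1) × V → Matrix (Fin 2) (Fin 2) ℝ) :
    W ℂ L β N (fun z => (D z).map (algebraMap ℝ ℂ)) = ((W ℝ L β N D : ℝ) : ℂ) := by
  rw [W, W]
  have h : ((Matrix.trace (rprod N (fun k => layD D k.succ * layerG ℝ L (β / (2 * N))) *
      layD D 0) : ℝ) : ℂ) = Matrix.trace ((rprod N (fun k => layD D k.succ *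
      layerG ℝ L (β / (2 * N))) * layD D 0).map (algebraMap ℝ ℂ)) := by
    simp [Matrix.trace]
  rw [h, Matrix.map_mul, rprod_map]
  simp only [Matrix.map_mul, layerG_map]
  have h0 : ∀ k, (layD D k).map (algebraMap ℝ ℂ) =
      layD (fun z => (D z).map (algebraMap ℝ ℂ)) k := fun k => layD_map D k
  simp only [h0]

/-- Real form: characteristic function of the charges = trace of the word with rotated slices. -/
theorem twist_real (L : List (V × V)) (β : ℝ) (N : ℕ) (θ φ : Fin (N + 1) × V → ℝ) :
    ∑ π, ∑ s, phys L β N π * wt θ π s * Real.cos (∑ z, φ z * jj π s z) =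
      W ℝ L β N fun z => rotD (θ z) (φ z) := by
  have h := twist_complex L β N θ φ
  rw [W_map] at h
  have h2 := congrArg Complex.re h
  rw [Complex.ofReal_re, Complex.re_sum] at h2
  rw [← h2]
  refine Finset.sum_congr rfl fun π _ => ?_
  rw [Complex.re_sum]
  refine Finset.sum_congr rfl fun s _ => ?_
  rw [Complex.re_ofReal_mul, mul_comm Complex.I, Complex.exp_ofReal_mul_I_re]

/-- Diagonal slice `1 + θ σ³`. -/
def dgD (θ : ℝ) : Matrix (Fin 2) (Fin 2) ℝ := !![1 + θ, 0; 0, 1 - θ]

lemma rotD_zero (θ : ℝ) : rotD θ 0 = dgD θ := by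
  simp [rotD, dgD]

theorem ZZ_phys (L : List (V × V)) (β : ℝ) (N : ℕ) (θ : Fin (N + 1) × V → ℝ) :
    ZZ (phys L β N) θ = W ℝ L β N fun z => dgD (θ z) := by
  have h := twist_real L β N θ fun _ => 0
  simp only [zero_mul, Finset.sum_const_zero, Real.cos_zero, mul_one, rotD_zero] at h
  exact h

/-! ### Symmetric node matrices, magnetization -/

/-- `σ³` as a `2 × 2` matrix (`0` = up). -/
def sg3 : Matrix (Fin 2) (Fin 2) ℝ := !![1, 0; 0, -1]

theorem sum_ab (L : List (V × V)) (β : ℝ) (N : ℕ) (a b : Fin (N + 1) × V → ℝ) :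
    ∑ π, ∑ s : Fin (N + 1) × V → Fin 2,
      phys L β N π * ∏ z, (if s z = s (π z) then a z else b z) =
      W ℝ L β N fun z => !![a z + b z, 0; 0, a z - b z] := by
  let D : Fin (N + 1) × V → Matrix (Fin 2) (Fin 2) ℝ := fun z => !![a z, b z; b z, a z]
  let g : Matrix (Fin 2) (Fin 2) ℝ := !![1, 1; 1, -1]
  let g' : Matrix (Fin 2) (Fin 2) ℝ := !![1 / 2, 1 / 2; 1 / 2, -1 / 2]
  have hg : g' * g = 1 := by
    simp only [g, g', Matrix.mul_fin_two, Matrix.one_fin_two]
    norm_num
  have hD : ∀ z, g * D z * g' = !![a z + b z, 0; 0, a z - b z] := by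
    intro z
    simp only [g, g', D, Matrix.mul_fin_two]
    congr 1
    ext i j
    fin_cases i <;> fin_cases j <;> simp <;> ring
  have h := sum_phys_conj L β N D hg
  simp only [hD] at h
  rw [← h]
  refine Finset.sum_congr rfl fun π _ => ?_
  rw [Finset.smul_sum]
  refine Finset.sum_congr rfl fun s _ => ?_
  rw [smul_eq_mul]
  congr 1
  refine Finset.prod_congr rfl fun z _ => ?_
  generalize s z = u
  generalize s (π z) = v
  fin_cases u <;> fin_cases v <;> simp [D]

/-- The numerator of `mag`. -/
theorem mag_num (L : List (V × V)) (β : ℝ) (N : ℕ) (θ : Fin (N + 1) × V → ℝ)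
    (z : Fin (N + 1) × V) :
    (∑ π, ∑ s, if s z = s (π z) then 0 else phys L β N π * wt (Function.update θ z 1) π s) =
      W ℝ L β N (Function.update (fun y => dgD (θ y)) z sg3) := by
  have h := sum_ab L β N (Function.update (fun _ => 1) z 0) (Function.update θ z 1)
  have hD : (fun y => !![Function.update (fun _ => (1 : ℝ)) z 0 y + Function.update θ z 1 y, 0; 0,
      Function.update (fun _ => (1 : ℝ)) z 0 y - Function.update θ z 1 y]) =
      Function.update (fun y => dgD (θ y)) z sg3 := by
    funext y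
    by_cases hy : y = z
    · subst hy
      simp [sg3]
    · simp [hy, dgD]
  rw [hD] at h
  rw [← h]
  refine Finset.sum_congr rfl fun π _ => Finset.sum_congr rfl fun s _ => ?_
  by_cases hs : s z = s (π z)
  · rw [if_pos hs, Finset.prod_eq_zero (Finset.mem_univ z), mul_zero]
    rw [if_pos hs, Function.update_self]
  · rw [if_neg hs, wt]
    congr 1
    refine Finset.prod_congr rfl fun y _ => ?_
    by_cases hy : y = z
    · subst hy
      rw [if_neg hs, if_neg hs]
    · simp [hy]

/-- The denominator of `mag`. -/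
theorem mag_den (L : List (V × V)) (β : ℝ) (N : ℕ) (θ : Fin (N + 1) × V → ℝ)
    (z : Fin (N + 1) × V) :
    (∑ π, ∑ s, if s z = s (π z) then phys L β N π * wt θ π s else 0) =
      W ℝ L β N (Function.update (fun y => dgD (θ y)) z 1) := by
  have h := sum_ab L β N (fun _ => 1) (Function.update θ z 0)
  have hD : (fun y => !![(1 : ℝ) + Function.update θ z 0 y, 0; 0,
      (1 : ℝ) - Function.update θ z 0 y]) =
      Function.update (fun y => dgD (θ y)) z 1 := by
    funext y
    by_cases hy : y = z
    · subst hy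
      simp [Matrix.one_fin_two]
    · simp [hy, dgD]
  rw [hD] at h
  rw [← h]
  refine Finset.sum_congr rfl fun π _ => Finset.sum_congr rfl fun s _ => ?_
  by_cases hs : s z = s (π z)
  · rw [if_pos hs, wt]
    congr 1
    refine Finset.prod_congr rfl fun y _ => ?_
    by_cases hy : y = z
    · subst hy
      rw [if_pos hs, if_pos hs]
    · simp [hy]
  · rw [if_neg hs, Finset.prod_eq_zero (Finset.mem_univ z), mul_zero]
    rw [if_neg hs, Function.update_self]

theorem mag_phys (L : List (V × V)) (β : ℝ) (N : ℕ) (θ : Fin (N + 1) × V → ℝ)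
    (z : Fin (N + 1) × V) :
    mag (phys L β N) θ z = W ℝ L β N (Function.update (fun y => dgD (θ y)) z sg3) /
      W ℝ L β N (Function.update (fun y => dgD (θ y)) z 1) := by
  rw [mag, mag_num, mag_den]

/-! ### Words with equal layers -/

lemma rprod_update {ι : Type*} [Fintype ι] [DecidableEq ι] (n : ℕ) (A B : Matrix ι ι R)
    (k : Fin n) :
    rprod n (Function.update (fun _ => A) k B) = A ^ (n - 1 - k) * B * A ^ (k : ℕ) := by
  induction n with
  | zero => exact k.elim0
  | succ n ih =>
    rw [rprod]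
    refine Fin.cases ?_ (fun j => ?_) k
    · have h1 : (fun i : Fin n => Function.update (fun _ : Fin (n + 1) => A) 0 B i.succ) =
          fun _ => A := by
        funext i
        rw [Function.update_of_ne (Fin.succ_ne_zero i)]
      rw [h1, rprod_const, Function.update_self]
      simp
    · have h1 : (fun i : Fin n => Function.update (fun _ : Fin (n + 1) => A) j.succ B i.succ) =
          Function.update (fun _ => A) j B := by
        funext i
        by_cases hi : i = j
        · subst hi
          rw [Function.update_self, Function.update_self]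
        · rw [Function.update_of_ne hi,
            Function.update_of_ne (fun h => hi (Fin.succ_injective n h))]
      rw [h1, ih j, Function.update_of_ne (Fin.succ_ne_zero j).symm]
      have h2 : n + 1 - 1 - (j.succ : ℕ) = n - 1 - (j : ℕ) := by
        rw [Fin.val_succ]
        omega
      rw [h2, Fin.val_succ, pow_succ]
      simp only [mul_assoc]

/-- All layers `1, …, N` equal. -/
theorem W_const (L : List (V × V)) (β : ℝ) (N : ℕ)
    (D : Fin (N + 1) × V → Matrix (Fin 2) (Fin 2) R) (E : V → Matrix (Fin 2) (Fin 2) R)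
    (hE : ∀ (k : Fin N) (x : V), D (k.succ, x) = E x) :
    W R L β N D = Matrix.trace ((tX E * layerG R L (β / (2 * N))) ^ N *
      tX fun x => D (0, x)) := by
  rw [W]
  have h1 : (fun k : Fin N => layD (fun z => D z) k.succ * layerG R L (β / (2 * N))) =
      fun _ => tX E * layerG R L (β / (2 * N)) := by
    funext k
    congr 1
    ext a b
    simp only [layD, Matrix.of_apply, tX_apply, hE]
  rw [h1, rprod_const]
  rfl

/-- All layers `1, …, N` equal but one, the layer `k + 1`. -/
theorem W_insert (L : List (V × V)) (β : ℝ) (N : ℕ)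
    (D : Fin (N + 1) × V → Matrix (Fin 2) (Fin 2) R) (E E' : V → Matrix (Fin 2) (Fin 2) R)
    (k : Fin N) (hE : ∀ (j : Fin N) (x : V), j ≠ k → D (j.succ, x) = E x)
    (hE' : ∀ x : V, D (k.succ, x) = E' x) :
    W R L β N D = Matrix.trace ((tX E * layerG R L (β / (2 * N))) ^ (N - 1 - k) *
      (tX E' * layerG R L (β / (2 * N))) *
      (tX E * layerG R L (β / (2 * N))) ^ (k : ℕ) * tX fun x => D (0, x)) := by
  rw [W]
  have h1 : (fun j : Fin N => layD (fun z => D z) j.succ * layerG R L (β / (2 * N))) =
      Function.update (fun _ => tX E * layerG R L (β / (2 * N))) k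
        (tX E' * layerG R L (β / (2 * N))) := by
    funext j
    by_cases hj : j = k
    · subst hj
      rw [Function.update_self]
      congr 1
      ext a b
      simp only [layD, Matrix.of_apply, tX_apply, hE']
    · rw [Function.update_of_ne hj]
      congr 1
      ext a b
      simp only [layD, Matrix.of_apply, tX_apply, hE j _ hj]
  rw [h1, rprod_update]
  rfl

/-! ### The matrices of part C -/

lemma swapM_eq (x y : V) : swapM x y = permM ℝ (Equiv.swap x y) := rfl

lemma tX_dg (θ : V → ℝ) : tX (fun x => dgD (θ x)) =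
    Matrix.diagonal fun σ : V → Fin 2 => ∏ x, if σ x = 0 then 1 + θ x else 1 - θ x := by
  ext a b
  rw [tX_apply, Matrix.diagonal_apply]
  by_cases h : a = b
  · subst h
    rw [if_pos rfl]
    refine Finset.prod_congr rfl fun x _ => ?_
    generalize a x = u
    fin_cases u <;> simp [dgD]
  · rw [if_neg h]
    obtain ⟨x, hx⟩ := Function.ne_iff.1 h
    refine Finset.prod_eq_zero (Finset.mem_univ x) ?_
    revert hx
    generalize a x = u
    generalize b x = v
    intro huv
    fin_cases u <;> fin_cases v <;> simp [dgD] at huv ⊢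

end Bridge

end

end Vale.Agent.P361.LRO
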