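import Vale.Agent.P361.LRO.Bridge.Tens

/-!
P361, bridge: the partition function of the physical circuit is the trace of a product of
matrices on `V → Fin 2`.
-/

namespace Vale.Agent.P361.LRO.Br

open Finset Matrix

noncomputable section

section chain

variable {Y : Type} [Fintype Y] [DecidableEq Y] {R : Type} [CommRing R]

/-- Expansion of a product of matrices. -/
theorem chain : ∀ (n : ℕ) (M : Fin n → Matrix Y Y R) (b : Y) (g : Y → R),
    ∑ t : Fin n → Y, (∏ k : Fin n, M k (t k) ((Fin.cons b t : Fin (n + 1) → Y) k.castSucc)) *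
      g ((Fin.cons b t : Fin (n + 1) → Y) (Fin.last n)) =
    ∑ a, g a * ((List.ofFn M).reverse).prod a b
  | 0, M, b, g => by
    simp only [List.ofFn_zero, List.reverse_nil, List.prod_nil, Finset.univ_unique,
      Finset.sum_singleton, Finset.univ_eq_empty, Finset.prod_empty, one_mul]
    rw [Finset.sum_eq_single b]
    · simp
    · intro a _ h
      rw [Matrix.one_apply_ne h, mul_zero]
    · intro h
      exact absurd (Finset.mem_univ b) h
  | n + 1, M, b, g => by
    rw [← (Fin.consEquiv fun _ : Fin (n + 1) => Y).sum_comp, Fintype.sum_prod_type]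
    have h : ∀ t₀ : Y, ∑ t' : Fin n → Y, (∏ k : Fin (n + 1), M k
        ((Fin.consEquiv (fun _ : Fin (n + 1) => Y)) (t₀, t') k)
        ((Fin.cons b ((Fin.consEquiv (fun _ : Fin (n + 1) => Y)) (t₀, t')) :
          Fin (n + 2) → Y) k.castSucc)) *
        g ((Fin.cons b ((Fin.consEquiv (fun _ : Fin (n + 1) => Y)) (t₀, t')) :
          Fin (n + 2) → Y) (Fin.last (n + 1))) =
        M 0 t₀ b * ∑ a, g a * ((List.ofFn fun k : Fin n => M k.succ).reverse).prod a t₀ := by
      intro t₀
      rw [← chain n (fun k => M k.succ) t₀ g, Finset.mul_sum]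
      refine Finset.sum_congr rfl fun t' _ => ?_
      rw [Fin.prod_univ_succ, ← mul_assoc]
      congr 1
    rw [Finset.sum_congr rfl fun t₀ _ => h t₀, List.ofFn_succ, List.reverse_cons, List.prod_append,
      List.prod_singleton]
    simp only [Matrix.mul_apply, Finset.mul_sum]
    rw [Finset.sum_comm]
    refine Finset.sum_congr rfl fun a _ => Finset.sum_congr rfl fun t₀ _ => ?_
    ring

/-- Cyclic products. -/
theorem cyclic (n : ℕ) (M : Fin (n + 1) → Matrix Y Y R) :
    ∑ s : Fin (n + 1) → Y, ∏ k, M k (s k) (s (k - 1)) =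
      Matrix.trace (M 0 * ((List.ofFn fun k : Fin n => M k.succ).reverse).prod) := by
  rw [← (Fin.consEquiv fun _ : Fin (n + 1) => Y).sum_comp, Fintype.sum_prod_type, Matrix.trace]
  refine Finset.sum_congr rfl fun b _ => ?_
  rw [Matrix.diag_apply, Matrix.mul_apply, ← chain n (fun k => M k.succ) b fun a => M 0 b a]
  refine Finset.sum_congr rfl fun t _ => ?_
  rw [Fin.prod_univ_succ, mul_comm]
  congr 1
  · refine Finset.prod_congr rfl fun k _ => ?_
    have h : k.succ - 1 = k.castSucc := by
      rw [← Fin.coeSucc_eq_succ, add_sub_cancel_right]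
    rw [h]
    rfl
  · have h : (0 : Fin (n + 1)) - 1 = Fin.last n := by
      rw [sub_eq_iff_eq_add]
      simp
    rw [h]
    rfl

end chain

end

end Vale.Agent.P361.LRO.Br
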