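import Mathlib
import Vale.Agent.P361.LRO.Defs

/-!
P361, bridge between the permutation form (Defs, parts A and B) and matrices on `V → Fin 2`
(Defs, part C): the sum over worldline permutations and spins is the trace of a word.
-/

namespace Vale.Agent.P361.LRO

open Finset Matrix

noncomputable section

set_option linter.unusedSectionVars false

namespace Bridge

variable {V : Type} [Fintype V] [DecidableEq V]
variable {R : Type*} [CommRing R] [Algebra ℝ R]

/-- The permutation operator, entries `[a = b ∘ σ]`. -/
def permM (R : Type*) [CommRing R] {X : Type} [Fintype X] [DecidableEq X] (σ : Equiv.Perm X) :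
    Matrix (X → Fin 2) (X → Fin 2) R :=
  Matrix.of fun a b => if a = b ∘ σ then 1 else 0

section Perm

variable {X : Type} [Fintype X] [DecidableEq X]

lemma permM_apply (σ : Equiv.Perm X) (a b : X → Fin 2) :
    permM R σ a b = if a = b ∘ σ then 1 else 0 := rfl

lemma permM_one : permM R (1 : Equiv.Perm X) = 1 := by
  ext a b
  simp [permM_apply, Matrix.one_apply]

lemma permM_mul (σ τ : Equiv.Perm X) : permM R σ * permM R τ = permM R (τ * σ) := by
  ext a b
  simp only [Matrix.mul_apply, permM_apply]
  rw [Finset.sum_eq_single (b ∘ τ)]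
  · simp only [if_true, mul_one]
    rfl
  · intro c _ hc
    rw [if_neg hc, mul_zero]
  · intro h
    exact absurd (Finset.mem_univ _) h

/-- The gate `(1 - p) + p P_xy`. -/
def gateM (R : Type*) [CommRing R] [Algebra ℝ R] (x y : X) (p : ℝ) :
    Matrix (X → Fin 2) (X → Fin 2) R :=
  (1 - p) • (1 : Matrix (X → Fin 2) (X → Fin 2) R) + p • permM R (Equiv.swap x y)

/-- Averaging a permutation operator over `law`. -/
lemma sum_law_permM (l : List (X × X × ℝ)) (σ : Equiv.Perm X) :
    ∑ π, law l σ π • permM R π =
      permM R σ * (l.map fun g => gateM R g.1 g.2.1 g.2.2).reverse.prod := by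
  induction l with
  | nil =>
    simp only [law, List.map_nil, List.reverse_nil, List.prod_nil, mul_one]
    rw [Finset.sum_eq_single σ]
    · simp
    · intro b _ hb
      simp [hb]
    · intro h
      exact absurd (Finset.mem_univ _) h
  | cons g l ih =>
    simp only [law, List.map_cons, List.reverse_cons, List.prod_append, List.prod_cons,
      List.prod_nil, mul_one]
    rw [← mul_assoc, ← ih]
    have h1 : ∑ π, (g.2.2 * law l σ (Equiv.swap g.1 g.2.1 * π)) • permM R π =
        (∑ π, law l σ π • permM R π) * (g.2.2 • permM R (Equiv.swap g.1 g.2.1)) := by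
      rw [Finset.sum_mul]
      refine Fintype.sum_equiv (Equiv.mulLeft (Equiv.swap g.1 g.2.1)) _ _ fun π => ?_
      simp only [Equiv.coe_mulLeft]
      rw [Matrix.smul_mul, Matrix.mul_smul, permM_mul, smul_smul, mul_comm g.2.2, ← mul_assoc,
        Equiv.swap_mul_self, one_mul]
    have h2 : ∑ π, ((1 - g.2.2) * law l σ π) • permM R π =
        (∑ π, law l σ π • permM R π) *
          ((1 - g.2.2) • (1 : Matrix (X → Fin 2) (X → Fin 2) R)) := by
      rw [Finset.sum_mul]
      refine Finset.sum_congr rfl fun π _ => ?_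
      rw [Matrix.smul_mul, Matrix.mul_smul, mul_one, smul_smul, mul_comm (1 - g.2.2)]
    calc ∑ π, ((1 - g.2.2) * law l σ π + g.2.2 * law l σ (Equiv.swap g.1 g.2.1 * π)) • permM R π
        = ∑ π, ((1 - g.2.2) * law l σ π) • permM R π
          + ∑ π, (g.2.2 * law l σ (Equiv.swap g.1 g.2.1 * π)) • permM R π := by
          rw [← Finset.sum_add_distrib]
          exact Finset.sum_congr rfl fun π _ => add_smul _ _ _
      _ = _ := by rw [h1, h2, gateM, mul_add]

/-- `∑_s ∏_z D_z (s z) (s (π z))` is a trace. -/
lemma sum_prod_eq_trace (D : X → Fin 2 → Fin 2 → R) (π : Equiv.Perm X) :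
    ∑ s : X → Fin 2, ∏ z, D z (s z) (s (π z)) =
      Matrix.trace ((Matrix.of fun a b : X → Fin 2 => ∏ z, D z (a z) (b z)) * permM R π) := by
  simp only [Matrix.trace, Matrix.diag_apply, Matrix.mul_apply, permM_apply, Matrix.of_apply]
  refine Finset.sum_congr rfl fun s _ => ?_
  rw [Finset.sum_eq_single (s ∘ π)]
  · simp
  · intro c _ hc
    rw [if_neg hc, mul_zero]
  · intro h
    exact absurd (Finset.mem_univ _) h

end Perm

/-! ### Products of matrices as sums over paths -/

section Path

variable {ι : Type*} [Fintype ι] [DecidableEq ι]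

/-- `A_{n-1} ⋯ A_1 A_0`. -/
def rprod : (n : ℕ) → (Fin n → Matrix ι ι R) → Matrix ι ι R
  | 0, _ => 1
  | n + 1, A => rprod n (fun k => A k.succ) * A 0

lemma rprod_const (n : ℕ) (A : Matrix ι ι R) : rprod n (fun _ => A) = A ^ n := by
  induction n with
  | zero => simp [rprod]
  | succ n ih => rw [rprod, ih, pow_succ]

lemma rprod_apply (n : ℕ) (A : Fin n → Matrix ι ι R) (a b : ι) :
    rprod n A a b = ∑ s : Fin (n + 1) → ι,
      if s 0 = b ∧ s (Fin.last n) = a then ∏ k : Fin n, A k (s k.succ) (s k.castSucc) else 0 := by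
  induction n generalizing a b with
  | zero =>
    simp only [rprod, Finset.univ_eq_empty, Finset.prod_empty]
    rw [Fintype.sum_equiv (Equiv.funUnique (Fin 1) ι) _
      (fun c => if c = b ∧ c = a then (1 : R) else 0)
      (fun s => by
        simp only [Equiv.funUnique_apply]
        rfl)]
    rw [Matrix.one_apply]
    by_cases hab : a = b
    · subst hab
      simp
    · rw [if_neg hab, Finset.sum_eq_zero]
      intro c _
      rw [if_neg]
      rintro ⟨h1, h2⟩
      exact hab (h2.symm.trans h1)
  | succ n ih =>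
    rw [rprod, Matrix.mul_apply]
    simp only [ih]
    rw [← (Fin.consEquiv (fun _ : Fin (n + 2) => ι)).sum_comp, Fintype.sum_prod_type]
    have hR : ∀ c : ι, ∀ t : Fin (n + 1) → ι,
        (if (Fin.consEquiv (fun _ : Fin (n + 2) => ι)) (c, t) 0 = b ∧
            (Fin.consEquiv (fun _ : Fin (n + 2) => ι)) (c, t) (Fin.last (n + 1)) = a then
          ∏ k : Fin (n + 1), A k ((Fin.consEquiv (fun _ : Fin (n + 2) => ι)) (c, t) k.succ)
            ((Fin.consEquiv (fun _ : Fin (n + 2) => ι)) (c, t) k.castSucc) else 0) =
        if c = b then (if t (Fin.last n) = a then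
          A 0 (t 0) c * ∏ k : Fin n, A k.succ (t k.succ) (t k.castSucc) else 0) else 0 := by
      intro c t
      have e1 : (Fin.consEquiv (fun _ : Fin (n + 2) => ι)) (c, t) 0 = c := rfl
      have e2 : (Fin.consEquiv (fun _ : Fin (n + 2) => ι)) (c, t) (Fin.last (n + 1)) =
          t (Fin.last n) := rfl
      have e3 : ∏ k : Fin (n + 1), A k ((Fin.consEquiv (fun _ : Fin (n + 2) => ι)) (c, t) k.succ)
            ((Fin.consEquiv (fun _ : Fin (n + 2) => ι)) (c, t) k.castSucc) =
          A 0 (t 0) c * ∏ k : Fin n, A k.succ (t k.succ) (t k.castSucc) := by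
        rw [Fin.prod_univ_succ]
        rfl
      rw [e1, e2, e3]
      by_cases hc : c = b <;> simp [hc]
    simp only [hR]
    have hS : ∀ c : ι, (∑ t : Fin (n + 1) → ι, if c = b then (if t (Fin.last n) = a then
          A 0 (t 0) c * ∏ k : Fin n, A k.succ (t k.succ) (t k.castSucc) else 0) else 0) =
        if c = b then (∑ t : Fin (n + 1) → ι, if t (Fin.last n) = a then
          A 0 (t 0) b * ∏ k : Fin n, A k.succ (t k.succ) (t k.castSucc) else 0) else 0 := by
      intro c
      by_cases hc : c = b
      · subst hc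
        simp
      · simp [hc]
    simp only [hS, Finset.sum_ite_eq', Finset.mem_univ, if_true]
    simp only [Finset.sum_mul]
    rw [Finset.sum_comm]
    refine Finset.sum_congr rfl fun t _ => ?_
    rw [Finset.sum_eq_single (t 0)]
    · by_cases h : t (Fin.last n) = a
      · simp [h, mul_comm]
      · simp [h]
    · intro c _ hc
      rw [if_neg (fun h => hc h.1.symm), zero_mul]
    · intro h
      exact absurd (Finset.mem_univ _) h

/-- Cyclic sum over paths. -/
lemma sum_cyclic (N : ℕ) (M : Fin (N + 1) → Matrix ι ι R) :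
    ∑ s : Fin (N + 1) → ι, ∏ k, M k (s k) (s (k - 1)) =
      Matrix.trace (rprod N (fun k => M k.succ) * M 0) := by
  simp only [Matrix.trace, Matrix.diag_apply, Matrix.mul_apply, rprod_apply]
  have h0 : ∀ s : Fin (N + 1) → ι, ∏ k, M k (s k) (s (k - 1)) =
      (∏ k : Fin N, M k.succ (s k.succ) (s k.castSucc)) * M 0 (s 0) (s (Fin.last N)) := by
    intro s
    rw [Fin.prod_univ_succ, mul_comm]
    congr 1
    · refine Finset.prod_congr rfl fun k _ => ?_
      congr 2
      rw [sub_eq_iff_eq_add]
      exact (Fin.coeSucc_eq_succ).symm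
    · congr 2
      rw [sub_eq_iff_eq_add]
      exact (Fin.last_add_one N).symm
  simp only [h0, Finset.sum_mul]
  symm
  calc ∑ a, ∑ b, ∑ s : Fin (N + 1) → ι, (if s 0 = b ∧ s (Fin.last N) = a then
          ∏ k : Fin N, M k.succ (s k.succ) (s k.castSucc) else 0) * M 0 b a
      = ∑ s : Fin (N + 1) → ι, ∑ a, ∑ b, (if s 0 = b ∧ s (Fin.last N) = a then
          ∏ k : Fin N, M k.succ (s k.succ) (s k.castSucc) else 0) * M 0 b a := by
        rw [Finset.sum_congr rfl fun a _ => Finset.sum_comm, Finset.sum_comm]
    _ = _ := by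
        refine Finset.sum_congr rfl fun s _ => ?_
        rw [Finset.sum_eq_single (s (Fin.last N)), Finset.sum_eq_single (s 0)]
        · simp
        · intro b _ hb
          rw [if_neg (fun h => hb h.1.symm), zero_mul]
        · intro h
          exact absurd (Finset.mem_univ _) h
        · intro a _ ha
          refine Finset.sum_eq_zero fun b _ => ?_
          rw [if_neg (fun h => ha h.2.symm), zero_mul]
        · intro h
          exact absurd (Finset.mem_univ _) h

end Path

/-! ### Layers -/

section Tens

variable {n : ℕ}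

/-- One matrix per layer. -/
def tens (A : Fin n → Matrix (V → Fin 2) (V → Fin 2) R) :
    Matrix (Fin n × V → Fin 2) (Fin n × V → Fin 2) R :=
  Matrix.of fun s t => ∏ k, A k (fun x => s (k, x)) (fun x => t (k, x))

lemma tens_apply (A : Fin n → Matrix (V → Fin 2) (V → Fin 2) R) (s t : Fin n × V → Fin 2) :
    tens A s t = ∏ k, A k (fun x => s (k, x)) (fun x => t (k, x)) := rfl

lemma prod_ite_eq (s t : Fin n × V → Fin 2) :
    ∏ k, (if (fun x => s (k, x)) = (fun x => t (k, x)) then (1 : R) else 0) =
      if s = t then 1 else 0 := by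
  by_cases h : s = t
  · subst h
    simp
  · rw [if_neg h]
    have : ∃ k, ¬ ((fun x => s (k, x)) = (fun x => t (k, x))) := by
      by_contra hc
      push Not at hc
      apply h
      funext z
      exact congrFun (hc z.1) z.2
    obtain ⟨k, hk⟩ := this
    exact Finset.prod_eq_zero (Finset.mem_univ k) (if_neg hk)

lemma tens_one : tens (1 : Fin n → Matrix (V → Fin 2) (V → Fin 2) R) = 1 := by
  ext s t
  rw [tens_apply, Matrix.one_apply, ← prod_ite_eq]
  refine Finset.prod_congr rfl fun k _ => ?_
  rw [Pi.one_apply, Matrix.one_apply]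

lemma sum_curry (n : ℕ) (f : (Fin n → V → Fin 2) → R) :
    ∑ s : Fin n × V → Fin 2, f (fun k x => s (k, x)) = ∑ v : Fin n → V → Fin 2, f v :=
  Fintype.sum_equiv (Equiv.curry (Fin n) V (Fin 2)) _ _ fun _ => rfl

lemma tens_mul (A B : Fin n → Matrix (V → Fin 2) (V → Fin 2) R) :
    tens A * tens B = tens (A * B) := by
  ext s t
  rw [tens_apply, Matrix.mul_apply]
  simp only [tens_apply, ← Finset.prod_mul_distrib, Pi.mul_apply, Matrix.mul_apply]
  rw [Finset.prod_univ_sum, Fintype.piFinset_univ]
  exact sum_curry n (fun v => ∏ k, A k (fun x => s (k, x)) (v k) * B k (v k) (fun x => t (k, x)))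

/-- `tens` as a monoid homomorphism. -/
def tensHom (V : Type) [Fintype V] [DecidableEq V] (R : Type*) [CommRing R] [Algebra ℝ R] (n : ℕ) :
    (Fin n → Matrix (V → Fin 2) (V → Fin 2) R) →*
      Matrix (Fin n × V → Fin 2) (Fin n × V → Fin 2) R where
  toFun := tens
  map_one' := tens_one
  map_mul' A B := (tens_mul A B).symm

lemma tens_mulSingle_apply (k : Fin n) (A : Matrix (V → Fin 2) (V → Fin 2) R)
    (s t : Fin n × V → Fin 2) :
    tens (Pi.mulSingle k A) s t = A (fun x => s (k, x)) (fun x => t (k, x)) *
      if ∀ j, j ≠ k → ∀ x, s (j, x) = t (j, x) then 1 else 0 := by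
  rw [tens_apply, ← Finset.mul_prod_erase _ _ (Finset.mem_univ k), Pi.mulSingle_eq_same]
  congr 1
  by_cases h : ∀ j, j ≠ k → ∀ x, s (j, x) = t (j, x)
  · rw [if_pos h]
    refine Finset.prod_eq_one fun j hj => ?_
    rw [Pi.mulSingle_eq_of_ne (Finset.ne_of_mem_erase hj), Matrix.one_apply, if_pos]
    funext x
    exact h j (Finset.ne_of_mem_erase hj) x
  · rw [if_neg h]
    push Not at h
    obtain ⟨j, hj, x, hx⟩ := h
    refine Finset.prod_eq_zero (Finset.mem_erase.2 ⟨hj, Finset.mem_univ j⟩) ?_
    rw [Pi.mulSingle_eq_of_ne hj, Matrix.one_apply, if_neg]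
    intro hc
    exact hx (congrFun hc x)

lemma gateM_layer (k : Fin n) (x y : V) (p : ℝ) :
    gateM R (k, x) (k, y) p = tens (Pi.mulSingle k (gateM R x y p)) := by
  ext s t
  rw [tens_mulSingle_apply]
  simp only [gateM, Matrix.add_apply, Matrix.smul_apply, Matrix.one_apply, permM_apply]
  have h1 : (s = t) ↔ ((fun x => s (k, x)) = (fun x => t (k, x)) ∧
      ∀ j, j ≠ k → ∀ x, s (j, x) = t (j, x)) := by
    constructor
    · rintro rfl
      exact ⟨rfl, fun _ _ _ => rfl⟩
    · rintro ⟨h1, h2⟩
      funext ⟨j, z⟩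
      by_cases hj : j = k
      · subst hj
        exact congrFun h1 z
      · exact h2 j hj z
  have h2 : (s = t ∘ Equiv.swap (k, x) (k, y)) ↔
      ((fun x => s (k, x)) = (fun x => t (k, x)) ∘ Equiv.swap x y ∧
      ∀ j, j ≠ k → ∀ x, s (j, x) = t (j, x)) := by
    have hsw : ∀ j z, Equiv.swap (k, x) (k, y) (j, z) =
        if j = k then (k, Equiv.swap x y z) else (j, z) := by
      intro j z
      by_cases hj : j = k
      · subst hj
        rw [if_pos rfl]
        simp only [Equiv.swap_apply_def, Prod.mk.injEq, true_and]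
        split_ifs <;> rfl
      · rw [if_neg hj, Equiv.swap_apply_of_ne_of_ne]
        · intro h
          exact hj (congrArg Prod.fst h)
        · intro h
          exact hj (congrArg Prod.fst h)
    constructor
    · rintro rfl
      refine ⟨?_, ?_⟩
      · funext z
        simp only [Function.comp_apply, hsw, if_true]
      · intro j hj z
        simp only [Function.comp_apply, hsw, if_neg hj]
    · rintro ⟨h1, h2⟩
      funext ⟨j, z⟩
      simp only [Function.comp_apply, hsw]
      by_cases hj : j = k
      · subst hj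
        rw [if_pos rfl]
        exact congrFun h1 z
      · rw [if_neg hj]
        exact h2 j hj z
  by_cases hr : ∀ j, j ≠ k → ∀ x, s (j, x) = t (j, x)
  · rw [if_pos hr, mul_one]
    simp only [h1, h2, and_iff_left hr]
  · rw [if_neg hr, mul_zero, if_neg (fun h => hr (h1.1 h).2), if_neg (fun h => hr (h2.1 h).2),
      smul_zero, smul_zero, add_zero]

/-- All gates of one layer, in the order in which `law` puts them. -/
def layerG (R : Type*) [CommRing R] [Algebra ℝ R] (L : List (V × V)) (p : ℝ) :
    Matrix (V → Fin 2) (V → Fin 2) R :=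
  (L.map fun e => gateM R e.1 e.2 p).reverse.prod

lemma gates_prod (L : List (V × V)) (N : ℕ) (p : ℝ) :
    ((gates L N p).map fun g => gateM R g.1 g.2.1 g.2.2).reverse.prod =
      tens (fun k : Fin (N + 1) => if k = Fin.last N then 1 else layerG R L p) := by
  have key : ∀ ks : List (Fin N), ks.Nodup →
      ((ks.flatMap fun k => L.map fun e =>
        ((Pi.mulSingle k.castSucc (gateM R e.1 e.2 p) :
          Fin (N + 1) → Matrix (V → Fin 2) (V → Fin 2) R))).reverse.prod) =
      fun j => if j ∈ ks.map Fin.castSucc then layerG R L p else 1 := by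
    intro ks
    induction ks with
    | nil =>
      intro _
      funext j
      simp
    | cons k ks ih =>
      intro hn
      rw [List.nodup_cons] at hn
      rw [List.flatMap_cons, List.reverse_append, List.prod_append, ih hn.2]
      have h1 : (L.map fun e => ((Pi.mulSingle k.castSucc (gateM R e.1 e.2 p) :
          Fin (N + 1) → Matrix (V → Fin 2) (V → Fin 2) R))).reverse.prod =
          Pi.mulSingle k.castSucc (layerG R L p) := by
        have : (L.map fun e => ((Pi.mulSingle k.castSucc (gateM R e.1 e.2 p) :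
          Fin (N + 1) → Matrix (V → Fin 2) (V → Fin 2) R))).reverse =
          ((L.map fun e => gateM R e.1 e.2 p).reverse).map
            (MonoidHom.mulSingle (fun _ : Fin (N + 1) => Matrix (V → Fin 2) (V → Fin 2) R)
              k.castSucc) := by
          rw [List.map_reverse, List.map_map]
          rfl
        rw [this, ← map_list_prod]
        rfl
      rw [h1]
      funext j
      rw [Pi.mul_apply]
      by_cases hj : j = k.castSucc
      · subst hj
        have hnot : k.castSucc ∉ ks.map Fin.castSucc := by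
          intro hc
          rw [List.mem_map] at hc
          obtain ⟨k', hk', he⟩ := hc
          exact hn.1 (by rwa [← Fin.castSucc_injective N he])
        rw [if_neg hnot, one_mul, Pi.mulSingle_eq_same, if_pos]
        simp
      · rw [Pi.mulSingle_eq_of_ne hj, mul_one]
        congr 1
        simp [hj]
  have h2 : ((gates L N p).map fun g => gateM R g.1 g.2.1 g.2.2).reverse =
      (((List.finRange N).flatMap fun k => L.map fun e =>
        ((Pi.mulSingle k.castSucc (gateM R e.1 e.2 p) :
          Fin (N + 1) → Matrix (V → Fin 2) (V → Fin 2) R))).reverse).map (tensHom V R (N + 1)) := by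
    rw [List.map_reverse]
    congr 1
    rw [gates, List.map_flatMap, List.map_flatMap]
    congr 1
    funext k
    rw [List.map_map, List.map_map]
    congr 1
    funext e
    exact gateM_layer k.castSucc e.1 e.2 p
  rw [h2, ← map_list_prod, key _ (List.nodup_finRange N)]
  change tens _ = tens _
  congr 1
  funext j
  by_cases hj : j = Fin.last N
  · subst hj
    rw [if_pos rfl, if_neg]
    intro hc
    rw [List.mem_map] at hc
    obtain ⟨k, _, hk⟩ := hc
    exact (Fin.castSucc_lt_last k).ne hk
  · rw [if_neg hj, if_pos]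
    rw [List.mem_map]
    exact ⟨j.castPred hj, List.mem_finRange _, Fin.castSucc_castPred j hj⟩

/-- The tensor product of the node matrices of one layer. -/
def layD (D : Fin n × V → Fin 2 → Fin 2 → R) (k : Fin n) :
    Matrix (V → Fin 2) (V → Fin 2) R :=
  Matrix.of fun a b => ∏ x, D (k, x) (a x) (b x)

lemma of_prod_eq_tens (D : Fin n × V → Fin 2 → Fin 2 → R) :
    (Matrix.of fun a b : Fin n × V → Fin 2 => ∏ z, D z (a z) (b z)) = tens (layD D) := by
  ext a b
  rw [tens_apply, Matrix.of_apply, Fintype.prod_prod_type]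
  rfl

lemma trace_tens_base {N : ℕ} (A B : Fin (N + 1) → Matrix (V → Fin 2) (V → Fin 2) R) :
    Matrix.trace (tens A * (permM R (base N : Equiv.Perm (Fin (N + 1) × V)) * tens B)) =
      Matrix.trace (rprod N (fun k => A k.succ * B k.castSucc) * (A 0 * B (Fin.last N))) := by
  have h0 : Matrix.trace (rprod N (fun k => A k.succ * B k.castSucc) * (A 0 * B (Fin.last N))) =
      ∑ s : Fin (N + 1) → (V → Fin 2), ∏ k, (A k * B (k - 1)) (s k) (s (k - 1)) := by
    rw [sum_cyclic N (fun k => A k * B (k - 1))]
    congr 2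
    · congr 1
      funext k
      congr 2
      rw [eq_sub_iff_add_eq]
      exact Fin.coeSucc_eq_succ
    · congr 2
      rw [eq_sub_iff_add_eq]
      exact Fin.last_add_one N
  rw [h0, ← mul_assoc]
  have h1 : ∀ s u : Fin (N + 1) × V → Fin 2,
      (tens A * permM R (base N : Equiv.Perm (Fin (N + 1) × V))) s u =
        ∏ k, A k (fun x => s (k, x)) (fun x => u (k - 1, x)) := by
    intro s u
    rw [Matrix.mul_apply, Finset.sum_eq_single (u ∘ base N)]
    · rw [permM_apply, if_pos rfl, mul_one, tens_apply]
      rfl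
    · intro t _ ht
      rw [permM_apply, if_neg ht, mul_zero]
    · intro h
      exact absurd (Finset.mem_univ _) h
  have h2 : Matrix.trace (tens A * permM R (base N : Equiv.Perm (Fin (N + 1) × V)) * tens B) =
      ∑ s : Fin (N + 1) × V → Fin 2, ∑ u : Fin (N + 1) × V → Fin 2,
        ∏ k, (A k (fun x => s (k, x)) (fun x => u (k - 1, x)) *
          B (k - 1) (fun x => u (k - 1, x)) (fun x => s (k - 1, x))) := by
    simp only [Matrix.trace, Matrix.diag_apply]
    refine Finset.sum_congr rfl fun s _ => ?_
    rw [Matrix.mul_apply]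
    refine Finset.sum_congr rfl fun u _ => ?_
    rw [h1, tens_apply, Finset.prod_mul_distrib]
    congr 1
    exact ((Equiv.subRight (1 : Fin (N + 1))).prod_comp
      (fun k => B k (fun x => u (k, x)) (fun x => s (k, x)))).symm
  rw [h2]
  have h3 : ∀ s : Fin (N + 1) × V → Fin 2,
      ∑ u : Fin (N + 1) × V → Fin 2,
        ∏ k, (A k (fun x => s (k, x)) (fun x => u (k - 1, x)) *
          B (k - 1) (fun x => u (k - 1, x)) (fun x => s (k - 1, x))) =
      ∏ k, (A k * B (k - 1)) (fun x => s (k, x)) (fun x => s (k - 1, x)) := by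
    intro s
    simp only [Matrix.mul_apply]
    rw [Finset.prod_univ_sum, Fintype.piFinset_univ]
    exact Fintype.sum_equiv ((Equiv.curry (Fin (N + 1)) V (Fin 2)).trans
      (Equiv.arrowCongr (Equiv.subRight (1 : Fin (N + 1))).symm (Equiv.refl (V → Fin 2)))) _ _
      fun _ => rfl
  simp only [h3]
  exact sum_curry (N + 1) (fun v => ∏ k, (A k * B (k - 1)) (v k) (v (k - 1)))

end Tens

/-- **Bridge**: averages over worldline permutations and spins are traces of words. -/
theorem sum_phys (L : List (V × V)) (β : ℝ) (N : ℕ)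
    (D : Fin (N + 1) × V → Fin 2 → Fin 2 → R) :
    ∑ π, phys L β N π • ∑ s : Fin (N + 1) × V → Fin 2, ∏ z, D z (s z) (s (π z)) =
      Matrix.trace (rprod N (fun k => layD D k.succ * layerG R L (β / (2 * N))) * layD D 0) := by
  simp only [sum_prod_eq_trace]
  have h1 : ∑ π, phys L β N π • Matrix.trace
      ((Matrix.of fun a b : Fin (N + 1) × V → Fin 2 => ∏ z, D z (a z) (b z)) * permM R π) =
      Matrix.trace ((Matrix.of fun a b : Fin (N + 1) × V → Fin 2 => ∏ z, D z (a z) (b z)) *
        ∑ π, phys L β N π • permM R π) := by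
    rw [Finset.mul_sum, Matrix.trace_sum]
    refine Finset.sum_congr rfl fun π _ => ?_
    rw [Matrix.mul_smul, Matrix.trace_smul]
  rw [h1, phys, sum_law_permM, gates_prod, of_prod_eq_tens, trace_tens_base]
  congr 2
  · congr 1
    funext k
    rw [if_neg (Fin.castSucc_lt_last k).ne]
  · rw [if_pos rfl, mul_one]

end Bridge

end

end Vale.Agent.P361.LRO
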